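import Vale.Agent.P073Z.STAIR.Push
import Vale.Agent.P073Z.A1b
import Vale.Agent.P073Z.EN.B

/-!
# Generic points of the faces of a cube, and the energy of a face
-/

open Set Metric Topology Filter MeasureTheory
open scoped ENNReal NNReal

namespace P073.Stair

/-- the open cube -/
def ocube (z : Fin 3 → ℤ) : Set E3 := Set.pi univ fun i => Ioo (z i : ℝ) (z i + 1)

/-- the projection to the lower face -/
noncomputable def fl (z : Fin 3 → ℤ) (J : Finset (Fin 3)) (y : E3) : E3 :=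
  fun i => if i ∈ J then (z i : ℝ) else y i

variable {z : Fin 3 → ℤ} {J : Finset (Fin 3)} {H : E3 → E3}

theorem dgs_apply (I : Finset (Fin 3)) (s : ℝ) (y : E3) (i : Fin 3) :
    dgs I s y i = (if i ∈ I then s else 1) * y i := rfl

theorem norm_dgs_le (I : Finset (Fin 3)) {s : ℝ} (h0 : 0 ≤ s) (h1 : s ≤ 1) : ‖dgs I s‖ ≤ 1 := by
  refine ContinuousLinearMap.opNorm_le_bound _ zero_le_one fun y =>
    (pi_norm_le_iff_of_nonneg (by positivity)).2 fun i => ?_
  rw [dgs_apply, norm_mul]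
  refine mul_le_mul ?_ (norm_le_pi_norm y i) (norm_nonneg _) zero_le_one
  split_ifs
  · rwa [Real.norm_of_nonneg h0]
  · simp

theorem fl_eq (z : Fin 3 → ℤ) (J : Finset (Fin 3)) (y : E3) :
    fl z J y = dgs J 0 y + fl z J 0 := by
  funext i
  simp only [fl, Pi.add_apply, dgs_apply, Pi.zero_apply]
  split_ifs <;> simp

theorem fl_empty (z : Fin 3 → ℤ) : fl z ∅ = id := by
  funext y i
  simp [fl]

theorem dgs_empty (s : ℝ) : dgs ∅ s = ContinuousLinearMap.id ℝ E3 := by
  ext y i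
  simp [dgs_apply]

theorem hasFDerivAt_fl (y : E3) : HasFDerivAt (fl z J) (dgs J 0) y := by
  have : fl z J = fun y => dgs J 0 y + fl z J 0 := funext (fl_eq z J)
  rw [this]
  exact (dgs J 0).hasFDerivAt.add_const _

theorem mem_ucube {y : E3} : y ∈ ucube z ↔ ∀ i, (z i : ℝ) ≤ y i ∧ y i ≤ z i + 1 :=
  ⟨fun h i => ⟨h.1 i, h.2 i⟩, fun h => ⟨fun i => (h i).1, fun i => (h i).2⟩⟩

theorem mem_ocube {y : E3} : y ∈ ocube z ↔ ∀ i, (z i : ℝ) < y i ∧ y i < z i + 1 :=
  ⟨fun h i => h i (mem_univ i), fun h i _ => h i⟩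

theorem isOpen_ocube (z : Fin 3 → ℤ) : IsOpen (ocube z) :=
  isOpen_set_pi finite_univ fun _ _ => isOpen_Ioo

theorem ocube_subset (z : Fin 3 → ℤ) : ocube z ⊆ ucube z := fun _ h =>
  mem_ucube.2 fun i => ⟨(mem_ocube.1 h i).1.le, (mem_ocube.1 h i).2.le⟩

theorem ocube_ae (z : Fin 3 → ℤ) : ocube z =ᵐ[volume] ucube z := Measure.univ_pi_Ioo_ae_eq_Icc

theorem fl_mem {y : E3} (h : y ∈ ucube z) : fl z J y ∈ uface z J := by
  refine ⟨mem_ucube.2 fun i => ?_, fun i hi => if_pos hi⟩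
  unfold fl
  split_ifs
  · exact ⟨le_rfl, by linarith⟩
  · exact mem_ucube.1 h i

theorem lip_fl (z : Fin 3 → ℤ) (J : Finset (Fin 3)) : LipschitzWith 1 (fl z J) := by
  refine LipschitzWith.of_dist_le_mul fun y y' => (dist_pi_le_iff (by positivity)).2 fun i => ?_
  rw [NNReal.coe_one, one_mul]
  unfold fl
  split_ifs
  · rw [dist_self]; exact dist_nonneg
  · exact dist_le_pi_dist y y' i

theorem exists_clm (A : E3 →ᵃ[ℝ] E3) : ∃ L : E3 →L[ℝ] E3, ∀ y, HasFDerivAt A L y := by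
  refine ⟨LinearMap.toContinuousLinearMap A.linear, fun y => ?_⟩
  have : (A : E3 → E3) = fun y => LinearMap.toContinuousLinearMap A.linear y + A 0 := by
    funext y
    simpa using A.map_vadd 0 y
  rw [this]
  exact (LinearMap.toContinuousLinearMap A.linear).hasFDerivAt.add_const _

/-- at a generic point of a flat the tangential derivative is seen from nearby points -/
theorem genx {X : Set E3} (hX : IsCompact X) (hc : LocCone X) (hH : ConicalOn H X) :
    ∃ (K : ℝ) (N : Set E3), volume N = 0 ∧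
      (∀ y ∈ X, y ∉ N → ∃ A : E3 →L[ℝ] E3, HasFDerivAt H A y ∧ ‖A‖ ≤ K) ∧
      ∀ (z : Fin 3 → ℤ) (J : Finset (Fin 3)), ∀ᵐ y, fl z J y ∈ X →
        DifferentiableAt ℝ (H ∘ fl z J) y ∧ ∀ᶠ y' in 𝓝 (fl z J y), y' ∈ X → y' ∉ N →
          ∃ A, HasFDerivAt H A y' ∧ A.comp (dgs J 0) = fderiv ℝ (H ∘ fl z J) y ∧ ‖A‖ ≤ K := by
  obtain ⟨𝒮, -, h2, h3⟩ := A1.exists_simplices hX hc hH
  choose! A hA using h3
  choose L hL using fun s => exists_clm (A s)
  have hloc : ∀ s ∈ 𝒮, ∀ (π : E3 → E3) (P : E3 →L[ℝ] E3) (y : E3), HasFDerivAt π P y →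
      π y ∈ convexHull ℝ (s : Set E3) → y ∉ frontier (π ⁻¹' convexHull ℝ (s : Set E3)) →
      HasFDerivAt (H ∘ π) ((L s).comp P) y := by
    intro s hs π P y hπ hy hf
    have h1 : π ⁻¹' convexHull ℝ (s : Set E3) ∈ 𝓝 y :=
      mem_interior_iff_mem_nhds.1 ((mem_interior_iff_notMem_frontier (mem_preimage.2 hy)).2 hf)
    refine ((hL s (π y)).comp y hπ).congr_of_eventuallyEq ?_
    filter_upwards [h1] with x hx using hA s hs hx
  have hK : ∀ s ∈ 𝒮, ‖L s‖ ≤ ∑ s ∈ 𝒮, ‖L s‖ := fun s hs =>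
    Finset.single_le_sum (f := fun s => ‖L s‖) (fun _ _ => norm_nonneg _) hs
  have hN : ∀ s ∈ 𝒮, ∀ y ∈ convexHull ℝ (s : Set E3),
      y ∉ ⋃ s ∈ 𝒮, frontier (convexHull ℝ (s : Set E3)) → HasFDerivAt H (L s) y :=
    fun s hs y hy hn => hloc s hs id (ContinuousLinearMap.id ℝ E3) y (hasFDerivAt_id y) hy
      fun h => hn (mem_iUnion₂.2 ⟨s, hs, h⟩)
  refine ⟨∑ s ∈ 𝒮, ‖L s‖, ⋃ s ∈ 𝒮, frontier (convexHull ℝ (s : Set E3)), ?_, ?_, ?_⟩
  · exact (measure_biUnion_null_iff (Finset.countable_toSet 𝒮)).2 fun s _ =>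
      (convex_convexHull ℝ _).addHaar_frontier volume
  · intro y hy hn
    rw [h2] at hy
    obtain ⟨s, hs, hy⟩ := mem_iUnion₂.1 hy
    exact ⟨L s, hN s hs y hy hn, hK s hs⟩
  · intro z J
    have h4 : ∀ᵐ y, ∀ s ∈ 𝒮, y ∉ frontier (fl z J ⁻¹' convexHull ℝ (s : Set E3)) := by
      refine (eventually_all_finset 𝒮).2 fun s _ => measure_eq_zero_iff_ae_notMem.1 ?_
      refine Convex.addHaar_frontier volume ?_
      have h5 := ((convex_convexHull ℝ (s : Set E3)).translate_preimage_left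
        (fl z J 0)).linear_preimage (dgs J 0).toLinearMap
      refine Eq.mp (congrArg _ ?_) h5
      ext y
      simp only [mem_preimage]
      rw [fl_eq z J y]
      rfl
    filter_upwards [h4] with y hy hyX
    rw [h2] at hyX
    obtain ⟨s₀, hs₀, hy₀⟩ := mem_iUnion₂.1 hyX
    refine ⟨(hloc s₀ hs₀ _ _ y (hasFDerivAt_fl y) hy₀ (hy s₀ hs₀)).differentiableAt, ?_⟩
    have h5 : ∀ᶠ y' in 𝓝 (fl z J y), ∀ s ∈ 𝒮, y' ∈ convexHull ℝ (s : Set E3) →
        fl z J y ∈ convexHull ℝ (s : Set E3) := by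
      refine (eventually_all_finset 𝒮).2 fun s _ => ?_
      by_cases h : fl z J y ∈ convexHull ℝ (s : Set E3)
      · exact Eventually.of_forall fun _ _ => h
      · filter_upwards [((Finset.finite_toSet s).isClosed_convexHull ℝ).isOpen_compl.mem_nhds h]
          with y' h1 h2 using absurd h2 h1
    filter_upwards [h5] with y' h6 hy' hn
    rw [h2] at hy'
    obtain ⟨s, hs, hy'⟩ := mem_iUnion₂.1 hy'
    exact ⟨L s, hN s hs y' hy' hn,
      (hloc s hs _ _ y (hasFDerivAt_fl y) (h6 s hs hy') (hy s hs)).fderiv.symm, hK s hs⟩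

/-- genericity along the face `J` -/
def Gen (H : E3 → E3) (z : Fin 3 → ℤ) (J : Finset (Fin 3)) : Prop :=
  ∃ N : Set E3, volume N = 0 ∧ ∀ᵐ y, y ∈ ocube z → DifferentiableAt ℝ (H ∘ fl z J) y ∧
    ∃ K : ℝ, ∀ᶠ y' in 𝓝 (fl z J y), y' ∈ ucube z → y' ∉ N →
      ∃ A, HasFDerivAt H A y' ∧ A.comp (dgs J 0) = fderiv ℝ (H ∘ fl z J) y ∧ ‖A‖ ≤ K

/-- bounded derivative near the lower faces -/
def Unif (H : E3 → E3) (z : Fin 3 → ℤ) : Prop :=
  ∃ σ₀ > (0:ℝ), ∃ (K : ℝ) (N : Set E3), volume N = 0 ∧ ∀ y ∈ ucube z,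
    (∃ i, y i ≤ z i + σ₀) → y ∉ N →
      ∃ A : E3 →L[ℝ] E3, HasFDerivAt H A y ∧ ‖A‖ ≤ K

theorem gen_unif {W Z : Set E3} (hW : IsOpen W) (hc : ContinuousOn H W) (hZ : DiscreteIn Z W)
    (hH : ConicalOn H (W \ Z)) (hz : ucube z ⊆ W) (hi : ∀ ξ ∈ Z ∩ ucube z, ∀ i, ξ i ≠ z i) :
    (∀ J, Gen H z J) ∧ Unif H z := by
  have hQ : IsCompact (ucube z) := isCompact_Icc
  have hfin : (Z ∩ ucube z).Finite := by
    choose! U hU hf using hZ.2
    obtain ⟨t, ht, hcov⟩ := hQ.elim_nhds_subcover U fun x hx => hU x (hz hx)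
    refine (t.finite_toSet.biUnion fun x hx => hf x (hz (ht x hx))).subset fun y hy => ?_
    obtain ⟨x, hx, hyx⟩ := mem_iUnion₂.1 (hcov hy.2)
    exact mem_iUnion₂.2 ⟨x, hx, hy.1, hyx⟩
  obtain ⟨σ₀, h1, h0⟩ : ∃ σ₀ : ℝ, (∀ ξ ∈ Z ∩ ucube z, ∀ i, z i + σ₀ < ξ i) ∧ 0 < σ₀ := by
    refine (Eventually.and (f := 𝓝[>] (0:ℝ)) ?_ self_mem_nhdsWithin).exists
    refine (eventually_all_finite hfin).2 fun ξ hξ => eventually_all.2 fun i => ?_
    refine mem_nhdsWithin_of_mem_nhds ?_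
    have h2 : (z i : ℝ) < ξ i := lt_of_le_of_ne (hξ.2.1 i) (hi ξ hξ i).symm
    filter_upwards [Iio_mem_nhds (sub_pos.2 h2)] with σ hσ
    have : σ < ξ i - z i := hσ
    linarith
  let X : Set E3 := ucube z ∩ ⋃ i, {y | y i ≤ z i + σ₀}
  have hXc : LocCone X := (locCone_Icc_pi _ _).inter (LocCone.iUnion_finite fun i =>
    locCone_setOf_le (continuous_apply i) (A2.pl_proj i A2.conicalSet_univ).2 _)
  have hX : IsCompact X := hQ.inter_right (isClosed_iUnion_of_finite fun i =>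
    isClosed_le (continuous_apply i) continuous_const)
  obtain ⟨K, N, hN, hb, hg⟩ := genx hX hXc (hH.mono hXc.conicalSet fun y hy => ⟨hz hy.1,
    fun hyZ => let ⟨i, hi⟩ := mem_iUnion.1 hy.2; not_lt.2 hi (h1 y ⟨hyZ, hy.1⟩ i)⟩)
  refine ⟨fun J => ?_, σ₀, h0, K, N, hN, fun y hy hy' => hb y ⟨hy, mem_iUnion.2 hy'⟩⟩
  rcases J.eq_empty_or_nonempty with rfl | ⟨i, hiJ⟩
  · have hO : IsOpen (W \ Z) := by
      refine isOpen_iff_mem_nhds.2 fun x hx => ?_
      obtain ⟨U, hU, hf⟩ := hZ.2 x hx.1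
      filter_upwards [hW.mem_nhds hx.1, hU,
        hf.isClosed.isOpen_compl.mem_nhds fun h => hx.2 h.1] with y a b c using
        ⟨a, fun h => c ⟨h, b⟩⟩
    refine ⟨∅, measure_empty, ?_⟩
    filter_upwards [(aeaff hO ⟨hc.mono sdiff_subset, hH⟩).2,
      measure_eq_zero_iff_ae_notMem.1 (hfin.measure_zero volume)] with y h2 h3 hy
    obtain ⟨A, hA⟩ := h2 ⟨hz (ocube_subset z hy), fun h => h3 ⟨h, ocube_subset z hy⟩⟩
    obtain ⟨L, hL⟩ := exists_clm A
    rw [fl_empty, dgs_empty, Function.comp_id]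
    have h4 := (hL y).congr_of_eventuallyEq hA
    refine ⟨h4.differentiableAt, ‖L‖, ?_⟩
    filter_upwards [hA.eventuallyEq_nhds] with y' h5 _ _ using
      ⟨L, (hL y').congr_of_eventuallyEq h5, h4.fderiv.symm, le_rfl⟩
  · refine ⟨N, hN, ?_⟩
    filter_upwards [hg z J] with y h2 hy
    have h3 : fl z J y i = z i := if_pos hiJ
    obtain ⟨h4, h5⟩ := h2 ⟨(fl_mem (ocube_subset z hy)).1,
      mem_iUnion.2 ⟨i, show fl z J y i ≤ _ by linarith⟩⟩
    refine ⟨h4, K, ?_⟩
    filter_upwards [h5, (continuous_apply i).continuousAt.eventually_lt_const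
      (show fl z J y i < z i + σ₀ by linarith)] with y' h6 h7 h8 using
      h6 ⟨h8, mem_iUnion.2 ⟨i, le_of_lt h7⟩⟩

/-- integration of a function of the projection to a face -/
theorem lintegral_proj_le (z : Fin 3 → ℤ) (q : Fin 3 → Prop) [DecidablePred q] {G : E3 → ℝ≥0∞}
    (hG : Measurable G) : ∫⁻ y in ocube z, G (fun i => if q i then (z i : ℝ) else y i) ≤
      ∫⁻ y, G y ∂(μH[(Fintype.card {i // ¬ q i} : ℝ)]) := by
  let ι : ({i // ¬ q i} → ℝ) → E3 := fun w i => if h : q i then (z i : ℝ) else w ⟨i, h⟩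
  have hι : Isometry ι := by
    refine Isometry.of_dist_eq fun w w' => le_antisymm
      ((dist_pi_le_iff dist_nonneg).2 fun i => ?_) ((dist_pi_le_iff dist_nonneg).2 fun i => ?_)
    · by_cases h : q i
      · simp only [ι, dif_pos h, dist_self]; exact dist_nonneg
      · simp only [ι, dif_neg h]; exact dist_le_pi_dist w w' _
    · have := dist_le_pi_dist (ι w) (ι w') i.1
      simpa only [ι, dif_neg i.2] using this
  let e := MeasurableEquiv.piEquivPiSubtypeProd (fun _ : Fin 3 => ℝ) q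
  have he : MeasurePreserving e := volume_preserving_piEquivPiSubtypeProd _ _
  let Bx : Set ({i // q i} → ℝ) := Set.pi univ fun i => Ioo (z i : ℝ) (z i + 1)
  have hBx : volume Bx = 1 := by
    simp [Bx, volume_pi_pi]
  calc ∫⁻ y in ocube z, G (fun i => if q i then (z i : ℝ) else y i)
      ≤ ∫⁻ y in e ⁻¹' (Bx ×ˢ univ), G (ι (e y).2) :=
        lintegral_mono_set fun y hy => ⟨fun i _ => hy i.1 (mem_univ _), mem_univ _⟩
    _ = ∫⁻ w in Bx ×ˢ univ, G (ι w.2) := he.setLIntegral_comp_preimage_emb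
        e.measurableEmbedding (fun w => G (ι w.2)) _
    _ = ∫⁻ w, G (ι w) := by
        have h1 := lintegral_map (μ := (volume.restrict Bx).prod volume)
          (hG.comp hι.continuous.measurable) measurable_snd
        rw [Measure.map_snd_prod, Measure.restrict_apply_univ, hBx, one_smul] at h1
        rw [Measure.volume_eq_prod, ← Measure.prod_restrict, Measure.restrict_univ]
        exact h1.symm
    _ ≤ _ := by
        rw [← hausdorffMeasure_pi_real, ← lintegral_map hG hι.continuous.measurable,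
          hι.map_hausdorffMeasure (Or.inl (Nat.cast_nonneg _))]
        exact lintegral_mono' Measure.restrict_le_self le_rfl

theorem lintegral_fl_le (z : Fin 3 → ℤ) (J : Finset (Fin 3)) {G : E3 → ℝ≥0∞}
    (hG : Measurable G) :
    ∫⁻ y in ocube z, G (fl z J y) ≤ ∫⁻ y, G y ∂(μH[((3 - J.card : ℕ) : ℝ)]) := by
  have hcard : 3 - J.card = Fintype.card {i // i ∉ J} := by
    rw [Fintype.card_subtype_compl, Fintype.card_coe, Fintype.card_fin]
  rw [hcard]
  exact lintegral_proj_le z (fun i => i ∈ J) hG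

theorem face_le (z : Fin 3 → ℤ) (J : Finset (Fin 3)) (H : E3 → E3) {p : ℝ} (hp : 0 ≤ p) :
    ∫⁻ y in ocube z, ‖fderiv ℝ (H ∘ fl z J) y‖ₑ ^ p ≤ En (3 - J.card) p H (uface z J) := by
  let F : Set E3 := Set.pi univ fun i => if i ∈ J then {(z i : ℝ)} else Ioo (z i : ℝ) (z i + 1)
  have hF : MeasurableSet F := MeasurableSet.univ_pi fun i => by
    split_ifs
    exacts [measurableSet_singleton _, measurableSet_Ioo]
  have hinv : ∀ y y', fl z J y = fl z J y' →
      fderiv ℝ (H ∘ fl z J) y = fderiv ℝ (H ∘ fl z J) y' := by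
    intro y y' h
    have h1 : (fun x => (H ∘ fl z J) (x + (y' - y))) = H ∘ fl z J := by
      funext x
      have h2 : dgs J 0 y = dgs J 0 y' := by
        rw [fl_eq z J y, fl_eq z J y'] at h
        exact add_right_cancel h
      simp only [Function.comp]
      rw [fl_eq, map_add, map_sub, h2, sub_self, add_zero, ← fl_eq]
    have h3 := fderiv_comp_add_right (𝕜 := ℝ) (f := H ∘ fl z J) (x := y) (y' - y)
    rwa [h1, add_sub_cancel] at h3
  have hfl : ∀ y, fl z J (fl z J y) = fl z J y := fun y => funext fun i => by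
    unfold fl; split_ifs <;> rfl
  have hm : Measurable fun y => ‖fderiv ℝ (H ∘ fl z J) y‖ₑ ^ p :=
    (measurable_fderiv ℝ _).enorm.pow_const p
  calc ∫⁻ y in ocube z, ‖fderiv ℝ (H ∘ fl z J) y‖ₑ ^ p
      = ∫⁻ y in ocube z, F.indicator (fun y => ‖fderiv ℝ (H ∘ fl z J) y‖ₑ ^ p) (fl z J y) := by
        refine setLIntegral_congr_fun (isOpen_ocube z).measurableSet fun y hy => ?_
        have h1 : fl z J y ∈ F := fun i _ => by
          by_cases h : i ∈ J
          · simp only [fl, if_pos h]; rfl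
          · simp only [fl, if_neg h]; exact hy i (mem_univ i)
        simp only [indicator_of_mem h1, hinv _ _ (hfl y)]
    _ ≤ _ := lintegral_fl_le z J (hm.indicator hF)
    _ = _ := lintegral_indicator hF _
    _ ≤ ∫⁻ y in F, lipAt H (uface z J) y ^ p ∂(μH[((3 - J.card : ℕ) : ℝ)]) := by
        refine setLIntegral_mono' hF fun y hy => ENNReal.rpow_le_rpow ?_ hp
        let y' : E3 := fun i => if i ∈ J then z i + 1 / 2 else y i
        have h1 : y' ∈ ocube z := mem_ocube.2 fun i => by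
          have := hy i (mem_univ i)
          simp only [y'] at this ⊢
          split_ifs at this ⊢
          · constructor <;> linarith
          · exact this
        have h2 : fl z J y' = y := funext fun i => by
          have := hy i (mem_univ i)
          simp only [y', fl] at this ⊢
          split_ifs at this ⊢
          · exact this.symm
          · rfl
        rw [← h2, hinv _ _ (hfl y')]
        refine (EN.enorm_fderiv_le (mem_of_superset ((isOpen_ocube z).mem_nhds h1)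
          (ocube_subset z))).trans ?_
        simpa using EN.lipAt_comp_le (h := H) (fun _ => fl_mem) (lip_fl z J).lipschitzOnWith
          (ocube_subset z h1)
    _ ≤ _ := by
        refine lintegral_mono_set fun y hy => ⟨mem_ucube.2 fun i => ?_, fun i hi => ?_⟩
        · have := hy i (mem_univ i)
          simp only at this
          split_ifs at this
          · rw [mem_singleton_iff.1 this]; constructor <;> linarith
          · exact ⟨this.1.le, this.2.le⟩
        · have := hy i (mem_univ i)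
          simp only [if_pos hi] at this
          exact this

end P073.Stair
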