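import Vale.Agent.P073Z.STAIR.Gen

/-!
# The energy of the composition with the staircase map in one cube
-/

open Set Metric Topology Filter MeasureTheory
open scoped ENNReal NNReal

namespace P073.Stair

/-- the limit map before the projection to the face `J` -/
noncomputable def tj (s : ℝ) (c : E3 → ℝ) (z : Fin 3 → ℤ) (I J : Finset (Fin 3)) : E3 → E3 :=
  push (I \ J) (fun i => steep s (z i)) c

/-- the staircase map in one cube -/
noncomputable def th (s : ℝ) (c : E3 → ℝ) (z : Fin 3 → ℤ) (I : Finset (Fin 3)) (σ : ℝ) :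
    E3 → E3 := push I (fun i => stp s σ (z i)) c

/-- the tangential energy density -/
noncomputable def gj (H : E3 → E3) (p : ℝ) (z : Fin 3 → ℤ) (J : Finset (Fin 3)) : E3 → ℝ≥0∞ :=
  (ocube z).indicator fun y => ‖fderiv ℝ (H ∘ fl z J) y‖ₑ ^ p

/-- the height before flattening -/
noncomputable def mm (s : ℝ) (c : E3 → ℝ) (z : Fin 3 → ℤ) (i : Fin 3) (ξ : E3) : ℝ :=
  max (ξ i - c ξ) (steep s (z i) (ξ i))

/-- the common Lipschitz constant -/
noncomputable def kk (s : ℝ) : ℝ≥0 := 2 + (s⁻¹).toNNReal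

variable {s σ p : ℝ} {c : E3 → ℝ} {z : Fin 3 → ℤ} {I J : Finset (Fin 3)} {H : E3 → E3} {ξ : E3}

theorem measurable_gj : Measurable (gj H p z J) :=
  ((measurable_fderiv ℝ _).enorm.pow_const p).indicator (isOpen_ocube z).measurableSet

theorem inv_le_kk (s : ℝ) : s⁻¹ ≤ kk s := by
  have := Real.le_coe_toNNReal s⁻¹
  simp only [kk, NNReal.coe_add, NNReal.coe_ofNat]
  linarith

theorem tj_anti (hs : 0 < s) (hs1 : s < 1) (hc : LipschitzWith (1 / 2) c) :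
    AntilipschitzWith 2 (tj s c z I J) :=
  push_anti le_rfl (fun i t t' h => by
    have := steep_slope (k := z i) hs hs1 h
    simp only [NNReal.coe_ofNat]
    linarith) hc

theorem tj_lip (hs : 0 < s) (hc : LipschitzWith (1 / 2) c) :
    LipschitzWith (kk s) (tj s c z I J) :=
  push_lip le_self_add (fun _ _ _ => (steep_lip hs _ _ _).trans
    (mul_le_mul_of_nonneg_right (inv_le_kk s) (abs_nonneg _))) hc

theorem two_le_inv (h0 : 0 < σ) (h1 : σ ≤ 1 / 2) : 2 ≤ (σ⁻¹).toNNReal := by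
  rw [← NNReal.coe_le_coe, Real.coe_toNNReal _ (by positivity), NNReal.coe_ofNat,
    le_inv_comm₀ two_pos h0]
  linarith

theorem th_anti (hs : 0 < s) (hs1 : s < 1) (hc : LipschitzWith (1 / 2) c) (h0 : 0 < σ)
    (h1 : σ ≤ 1 / 2) : AntilipschitzWith (σ⁻¹).toNNReal (th s c z I σ) :=
  push_anti (two_le_inv h0 h1) (fun i t t' h => by
    rw [Real.coe_toNNReal _ (by positivity), le_inv_mul_iff₀ h0]
    exact stp_slope hs hs1 (by linarith) h) hc

theorem th_lip (hs : 0 < s) (hs1 : s < 1) (hc : LipschitzWith (1 / 2) c) (h0 : 0 < σ)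
    (h1 : σ ≤ 1 / 2) : LipschitzWith (kk s) (th s c z I σ) :=
  push_lip le_self_add (fun _ _ _ => (stp_lip hs hs1 h0.le (by linarith) _ _ _).trans
    (mul_le_mul_of_nonneg_right (inv_le_kk s) (abs_nonneg _))) hc

theorem th_of_mem {i : Fin 3} (hi : i ∈ I) :
    th s c z I σ ξ i = max (mm s c z i ξ) (z i + σ * (ξ i - z i)) := by
  rw [th, push_of_mem hi, stp, mm, max_comm (z i + σ * (ξ i - z i) : ℝ), max_assoc]

theorem mm_le (hs : 0 < s) (hs1 : s < 1) (hc0 : ∀ ξ, 0 ≤ c ξ) (h : ξ ∈ ocube z) (i : Fin 3) :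
    mm s c z i ξ ≤ ξ i :=
  max_le (sub_le_self _ (hc0 ξ)) (steep_le hs hs1 (mem_ocube.1 h i).2.le)

theorem th_mem (hs : 0 < s) (hs1 : s < 1) (hc0 : ∀ ξ, 0 ≤ c ξ) (h0 : 0 < σ) (h1 : σ ≤ 1 / 2)
    (h : ξ ∈ ocube z) : th s c z I σ ξ ∈ ocube z := by
  refine mem_ocube.2 fun i => ?_
  obtain ⟨a, b⟩ := mem_ocube.1 h i
  by_cases hi : i ∈ I
  · rw [th_of_mem hi]
    exact ⟨lt_max_of_lt_right (by nlinarith),
      max_lt ((mm_le hs hs1 hc0 h i).trans_lt b) (by nlinarith)⟩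
  · rw [th, push_of_notMem hi]
    exact ⟨a, b⟩

theorem tj_mem (hs : 0 < s) (hs1 : s < 1) (hc0 : ∀ ξ, 0 ≤ c ξ) (h : ξ ∈ ocube z)
    (h2 : ∀ i ∈ I \ J, z i < mm s c z i ξ) : tj s c z I J ξ ∈ ocube z := by
  refine mem_ocube.2 fun i => ?_
  by_cases hi : i ∈ I \ J
  · rw [tj, push_of_mem hi]
    exact ⟨h2 i hi, (mm_le hs hs1 hc0 h i).trans_lt (mem_ocube.1 h i).2⟩
  · rw [tj, push_of_notMem hi]
    exact mem_ocube.1 h i

theorem th_eq (hJ : J ⊆ I) (h0 : 0 ≤ σ) (h : ξ ∈ ocube z) (h1 : ∀ i ∈ J, mm s c z i ξ < z i)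
    (h2 : ∀ i ∈ I \ J, z i + σ < mm s c z i ξ) :
    th s c z I σ ξ = fl z J (tj s c z I J ξ) + σ • (ξ - fl z J ξ) := by
  funext i
  obtain ⟨a, b⟩ := mem_ocube.1 h i
  simp only [Pi.add_apply, Pi.smul_apply, Pi.sub_apply, smul_eq_mul, fl]
  by_cases hi : i ∈ J
  · rw [th_of_mem (hJ hi), if_pos hi, if_pos hi, max_eq_right (by nlinarith [h1 i hi])]
  · rw [if_neg hi, if_neg hi, sub_self, mul_zero, add_zero]
    by_cases hI : i ∈ I
    · have h3 : i ∈ I \ J := Finset.mem_sdiff.2 ⟨hI, hi⟩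
      rw [th_of_mem hI, max_eq_left (by nlinarith [h2 i h3]), tj, push_of_mem h3, mm]
    · rw [th, push_of_notMem hI, tj, push_of_notMem fun h => hI (Finset.mem_sdiff.1 h).1]

theorem th_ev (hc : LipschitzWith (1 / 2) c) (hJ : J ⊆ I) (h0 : 0 ≤ σ) (h : ξ ∈ ocube z)
    (h1 : ∀ i ∈ J, mm s c z i ξ < z i) (h2 : ∀ i ∈ I \ J, z i + σ < mm s c z i ξ) :
    th s c z I σ =ᶠ[𝓝 ξ] fun ξ => fl z J (tj s c z I J ξ) + σ • (ξ - fl z J ξ) := by
  have hm : ∀ i, Continuous (mm s c z i) := fun i => by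
    have := hc.continuous
    unfold mm steep
    fun_prop
  filter_upwards [(isOpen_ocube z).mem_nhds h,
    (eventually_all_finset J).2 fun i hi => (hm i).continuousAt.eventually_lt_const (h1 i hi),
    (eventually_all_finset (I \ J)).2 fun i hi =>
      (hm i).continuousAt.eventually_const_lt (h2 i hi)] with ξ' a b d using th_eq hJ h0 a b d

theorem enorm_comp_le {κ : ℝ≥0} (hp : 0 ≤ p) (L D : E3 →L[ℝ] E3) (h : ‖D‖ ≤ κ) :
    ‖L.comp D‖ₑ ^ p ≤ (κ : ℝ≥0∞) ^ p * ‖L‖ₑ ^ p := by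
  rw [← ENNReal.mul_rpow_of_nonneg _ _ hp]
  refine ENNReal.rpow_le_rpow ?_ hp
  rw [enorm_eq_nnnorm, enorm_eq_nnnorm, ← ENNReal.coe_mul, ENNReal.coe_le_coe, mul_comm]
  exact (L.opNNNorm_comp_le D).trans (mul_le_mul_right (show ‖D‖₊ ≤ κ from h) _)

section main

variable (hs : 0 < s) (hs1 : s < 1) (hp : 0 < p) (hc : LipschitzWith (1 / 2) c)
  (hc0 : ∀ ξ, 0 ≤ c ξ) (M : E3 →L[ℝ] E3) {κ : ℝ≥0}
  (hκ : ∀ J ⊆ I, ∀ ξ ∈ ocube z, tj s c z I J ξ ∈ ocube z →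
    ‖(fderiv ℝ (tj s c z I J) ξ).comp M‖ ≤ κ)

include hp hκ in
theorem term_le (hJ : J ⊆ I) (h : ξ ∈ ocube z) (hy : tj s c z I J ξ ∈ ocube z) :
    ‖((fderiv ℝ (H ∘ fl z J) (tj s c z I J ξ)).comp (fderiv ℝ (tj s c z I J) ξ)).comp M‖ₑ ^ p ≤
      ∑ J ∈ I.powerset, (κ : ℝ≥0∞) ^ p * gj H p z J (tj s c z I J ξ) := by
  refine le_trans ?_ (Finset.single_le_sum
    (f := fun J => (κ : ℝ≥0∞) ^ p * gj H p z J (tj s c z I J ξ)) (fun _ _ => zero_le)
    (Finset.mem_powerset.2 hJ))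
  rw [ContinuousLinearMap.comp_assoc, gj, indicator_of_mem hy]
  exact enorm_comp_le hp.le _ _ (hκ J hJ ξ h hy)

include hs hs1 hp hc hc0 hκ in
theorem lim_ae (hG : ∀ J, Gen H z J) {σ : ℕ → ℝ} (hσ : ∀ n, 0 < σ n ∧ σ n ≤ 1 / 2)
    (hlim : Tendsto σ atTop (𝓝 0)) : ∀ᵐ ξ, ξ ∈ ocube z → Tendsto (fun n =>
      ‖(fderiv ℝ (H ∘ th s c z I (σ n)) ξ).comp M‖ₑ ^ p -
        ∑ J ∈ I.powerset, (κ : ℝ≥0∞) ^ p * gj H p z J (tj s c z I J ξ)) atTop (𝓝 0) := by
  classical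
  choose N hN hG using hG
  have a1 : ∀ᵐ y : E3, ∀ i, y i ≠ z i := ae_all_iff.2 fun i => Measure.ae_eval_ne _ i _
  filter_upwards [ae_comp (tj_anti (z := z) (I := I) (J := ∅) hs hs1 hc) a1,
    ae_all_iff.2 fun J => ae_comp (tj_anti (z := z) (I := I) (J := J) hs hs1 hc) (hG J),
    ae_all_iff.2 fun J => ae_all_iff.2 fun n =>
      ae_comp (th_anti (z := z) (I := I) hs hs1 hc (hσ n).1 (hσ n).2)
        (measure_eq_zero_iff_ae_notMem.1 (hN J)),
    ae_all_iff.2 fun J => (tj_lip (z := z) (I := I) (J := J) hs hc).ae_differentiableAt]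
    with ξ b1 b2 b3 b4 hξ
  let J := I.filter fun i => mm s c z i ξ < z i
  have hJ : J ⊆ I := Finset.filter_subset _ _
  have h1 : ∀ i ∈ J, mm s c z i ξ < z i := fun i hi => (Finset.mem_filter.1 hi).2
  have h2 : ∀ i ∈ I \ J, z i < mm s c z i ξ := by
    intro i hi
    obtain ⟨hI, hn⟩ := Finset.mem_sdiff.1 hi
    refine lt_of_le_of_ne (not_lt.1 fun h => hn (Finset.mem_filter.2 ⟨hI, h⟩)) fun e => b1 i ?_
    rw [tj, push_of_mem (by simpa using hI)]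
    exact e.symm
  have hy := tj_mem hs hs1 hc0 hξ h2
  obtain ⟨-, K, hev⟩ := b2 J hy
  have h3 : ∀ᶠ n in atTop, ∀ i ∈ I \ J, z i + σ n < mm s c z i ξ :=
    (eventually_all_finset _).2 fun i hi =>
      (hlim.eventually_lt_const (sub_pos.2 (h2 i hi))).mono fun n hn => by linarith
  have h4 : Tendsto (fun n => th s c z I (σ n) ξ) atTop (𝓝 (fl z J (tj s c z I J ξ))) := by
    have h5 := (hlim.smul_const (ξ - fl z J ξ)).const_add (fl z J (tj s c z I J ξ))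
    rw [zero_smul, add_zero] at h5
    exact h5.congr' (h3.mono fun n hn => (th_eq hJ (hσ n).1.le hξ h1 hn).symm)
  have h6 : Tendsto (fun n => fderiv ℝ (H ∘ th s c z I (σ n)) ξ) atTop
      (𝓝 ((fderiv ℝ (H ∘ fl z J) (tj s c z I J ξ)).comp (fderiv ℝ (tj s c z I J) ξ))) := by
    rw [tendsto_iff_norm_sub_tendsto_zero]
    have h7 := hlim.mul_const (K * ‖ContinuousLinearMap.id ℝ E3 - dgs J 0‖)
    rw [zero_mul] at h7
    refine squeeze_zero' (Eventually.of_forall fun _ => norm_nonneg _) ?_ h7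
    filter_upwards [h3, h4.eventually hev] with n hn h8
    obtain ⟨A, hA, hAL, hAK⟩ := h8
      (ocube_subset z (th_mem hs hs1 hc0 (hσ n).1 (hσ n).2 hξ)) (b3 J n)
    have h9 : HasFDerivAt (th s c z I (σ n)) ((dgs J 0).comp (fderiv ℝ (tj s c z I J) ξ) +
        σ n • (ContinuousLinearMap.id ℝ E3 - dgs J 0)) ξ :=
      (((hasFDerivAt_fl _).comp ξ (b4 J).hasFDerivAt).add
        (((hasFDerivAt_id ξ).sub (hasFDerivAt_fl ξ)).const_smul (σ n))).congr_of_eventuallyEq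
        (th_ev hc hJ (hσ n).1.le hξ h1 hn)
    rw [(hA.comp ξ h9).fderiv, ← hAL, ContinuousLinearMap.comp_add,
      ContinuousLinearMap.comp_assoc, add_sub_cancel_left, ContinuousLinearMap.comp_smul,
      norm_smul, Real.norm_of_nonneg (hσ n).1.le]
    exact mul_le_mul_of_nonneg_left ((A.opNorm_comp_le _).trans
      (mul_le_mul_of_nonneg_right hAK (norm_nonneg _))) (hσ n).1.le
  have h10 : Continuous fun D : E3 →L[ℝ] E3 => ‖D.comp M‖ₑ ^ p :=
    ENNReal.continuous_rpow_const.comp (continuous_id.clm_comp continuous_const).enorm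
  have h11 := ((ENNReal.continuous_sub_right (‖((fderiv ℝ (H ∘ fl z J) (tj s c z I J ξ)).comp
    (fderiv ℝ (tj s c z I J) ξ)).comp M‖ₑ ^ p)).tendsto _).comp ((h10.tendsto _).comp h6)
  rw [tsub_self] at h11
  exact tendsto_of_tendsto_of_tendsto_of_le_of_le tendsto_const_nhds h11 (fun _ => zero_le)
    fun n => tsub_le_tsub_left (term_le hp M hκ hJ hξ hy) _

include hs hs1 hp hc hc0 hκ in
theorem bound_ae (hG : Gen H z ∅) (hU : Unif H z) : ∃ σ₀ > (0:ℝ), ∃ K : ℝ≥0∞, K ≠ ⊤ ∧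
    ∀ σ, 0 < σ → σ ≤ 1 / 2 → σ ≤ σ₀ → ∀ᵐ ξ, ξ ∈ ocube z →
      ‖(fderiv ℝ (H ∘ th s c z I σ) ξ).comp M‖ₑ ^ p -
        ∑ J ∈ I.powerset, (κ : ℝ≥0∞) ^ p * gj H p z J (tj s c z I J ξ) ≤ K := by
  obtain ⟨σ₀, h0, K, N, hN, hU⟩ := hU
  obtain ⟨N', -, hG⟩ := hG
  refine ⟨σ₀, h0, ENNReal.ofReal (K * kk s * ‖M‖) ^ p,
    ENNReal.rpow_ne_top_of_nonneg hp.le ENNReal.ofReal_ne_top, fun σ a b d => ?_⟩
  filter_upwards [ae_comp (tj_anti (z := z) (I := I) (J := ∅) hs hs1 hc) hG,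
    ae_comp (th_anti (z := z) (I := I) hs hs1 hc a b) (measure_eq_zero_iff_ae_notMem.1 hN),
    (tj_lip (z := z) (I := I) (J := ∅) hs hc).ae_differentiableAt,
    (th_lip (z := z) (I := I) hs hs1 hc a b).ae_differentiableAt] with ξ b2 b3 b4 b5 hξ
  by_cases h : ∃ i, th s c z I σ ξ i ≤ z i + σ₀
  · obtain ⟨A, hA, hAK⟩ := hU _ (ocube_subset z (th_mem hs hs1 hc0 a b hξ)) h b3
    refine tsub_le_self.trans (ENNReal.rpow_le_rpow ?_ hp.le)
    rw [(hA.comp ξ b5.hasFDerivAt).fderiv, ← ofReal_norm]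
    refine ENNReal.ofReal_le_ofReal ((ContinuousLinearMap.opNorm_comp_le _ _).trans
      (mul_le_mul_of_nonneg_right ((A.opNorm_comp_le _).trans ?_) (norm_nonneg _)))
    exact mul_le_mul hAK (norm_fderiv_le_of_lipschitz ℝ (th_lip hs hs1 hc a b)) (norm_nonneg _)
      ((norm_nonneg _).trans hAK)
  · push Not at h
    have h2 : ∀ i ∈ I \ ∅, z i + σ < mm s c z i ξ := by
      intro i hi
      have h3 := h i
      obtain ⟨h4, h5⟩ := mem_ocube.1 hξ i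
      rw [th_of_mem (Finset.mem_sdiff.1 hi).1, lt_max_iff] at h3
      rcases h3 with h3 | h3
      · linarith
      · nlinarith
    have hy := tj_mem hs hs1 hc0 hξ fun i hi => (lt_add_of_pos_right _ a).trans (h2 i hi)
    have h6 := th_ev hc (Finset.empty_subset I) a.le hξ (fun _ h => absurd h (by simp)) h2
    have h7 : H ∘ th s c z I σ =ᶠ[𝓝 ξ] (H ∘ fl z ∅) ∘ tj s c z I ∅ :=
      h6.mono fun x hx => by simp [hx, fl_empty]
    rw [h7.fderiv_eq, fderiv_comp ξ (b2 hy).1 b4,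
      tsub_eq_zero_of_le (term_le hp M hκ (Finset.empty_subset I) hξ hy)]
    exact zero_le

include hs hs1 hp hc hc0 hκ in
theorem loc (hG : ∀ J, Gen H z J) (hU : Unif H z) {σ : ℕ → ℝ} (hσ : ∀ n, 0 < σ n ∧ σ n ≤ 1 / 2)
    (hlim : Tendsto σ atTop (𝓝 0)) {ε : ℝ≥0∞} (hε : 0 < ε) : ∀ᶠ n in atTop,
    ∫⁻ ξ in ocube z, ‖(fderiv ℝ (H ∘ th s c z I (σ n)) ξ).comp M‖ₑ ^ p ≤
      ∑ J ∈ I.powerset, (κ : ℝ≥0∞) ^ p * (∫⁻ ξ in ocube z, gj H p z J (tj s c z I J ξ)) + ε := by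
  have hO := (isOpen_ocube z).measurableSet
  obtain ⟨σ₀, h0, K, hK, hb⟩ := bound_ae hs hs1 hp hc hc0 M hκ (hG ∅) hU
  have m1 : ∀ J, Measurable fun ξ => gj H p z J (tj s c z I J ξ) := fun J =>
    measurable_gj.comp (tj_lip hs hc).continuous.measurable
  have m2 : Measurable fun ξ => ∑ J ∈ I.powerset,
      (κ : ℝ≥0∞) ^ p * gj H p z J (tj s c z I J ξ) :=
    Finset.measurable_sum _ fun J _ => (m1 J).const_mul _
  have m3 : ∀ n, Measurable fun ξ => ‖(fderiv ℝ (H ∘ th s c z I (σ n)) ξ).comp M‖ₑ ^ p := fun n =>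
    ((continuous_id.clm_comp continuous_const).measurable.comp
      (measurable_fderiv ℝ _)).enorm.pow_const p
  have hfin : ∫⁻ _ in ocube z, K ≠ ⊤ := by
    rw [setLIntegral_const]
    exact ENNReal.mul_ne_top hK
      ((measure_mono (ocube_subset z)).trans_lt isCompact_Icc.measure_lt_top).ne
  have h1 := tendsto_lintegral_filter_of_dominated_convergence (μ := volume.restrict (ocube z))
    (fun _ => K) (Eventually.of_forall fun n => (m3 n).sub m2)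
    ((hlim.eventually_le_const h0).mono fun n hn =>
      (ae_restrict_iff' hO).2 (hb _ (hσ n).1 (hσ n).2 hn)) hfin
    ((ae_restrict_iff' hO).2 (lim_ae hs hs1 hp hc hc0 M hκ hG hσ hlim))
  rw [lintegral_zero] at h1
  filter_upwards [h1.eventually_le_const hε] with n hn
  refine (lintegral_mono fun ξ => le_add_tsub (b := ∑ J ∈ I.powerset,
    (κ : ℝ≥0∞) ^ p * gj H p z J (tj s c z I J ξ))).trans ?_
  rw [lintegral_add_left m2, lintegral_finsetSum _ fun J _ => (m1 J).const_mul _]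
  refine add_le_add (le_of_eq (Finset.sum_congr rfl fun J _ => ?_)) hn
  exact lintegral_const_mul _ (m1 J)

end main

/-- the composition is differentiable almost everywhere -/
theorem ae_diff (hs : 0 < s) (hs1 : s < 1) (hc : LipschitzWith (1 / 2) c) (hc0 : ∀ ξ, 0 ≤ c ξ)
    (hG : Gen H z ∅) (h0 : 0 < σ) (h1 : σ ≤ 1 / 2) :
    ∀ᵐ ξ, ξ ∈ ocube z → DifferentiableAt ℝ (H ∘ th s c z I σ) ξ := by
  obtain ⟨N', -, hG⟩ := hG
  filter_upwards [ae_comp (th_anti (z := z) (I := I) hs hs1 hc h0 h1) hG,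
    (th_lip (z := z) (I := I) hs hs1 hc h0 h1).ae_differentiableAt] with ξ a b hξ
  have h2 := (a (th_mem hs hs1 hc0 h0 h1 hξ)).1
  rw [fl_empty, Function.comp_id] at h2
  exact h2.comp ξ b

end P073.Stair
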