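import Vale.Agent.P073Z.Sk3
import Vale.Agent.P073Z.A8a
import Vale.Agent.P073Z.A2.PL

/-!
# Staircase functions and simultaneous pushes
-/

open Set Metric Topology Filter MeasureTheory
open scoped ENNReal NNReal

namespace P073.Stair

/-- the steep part of a step -/
noncomputable def steep (s k t : ℝ) : ℝ := k + 1 - (k + 1 - t) / s

/-- one step -/
noncomputable def stp (s σ k t : ℝ) : ℝ := max (k + σ * (t - k)) (steep s k t)

/-- the staircase -/
noncomputable def st (s σ t : ℝ) : ℝ := stp s σ ⌊t⌋ t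

/-- the simultaneous push in the directions `S` -/
noncomputable def push (S : Finset (Fin 3)) (u : Fin 3 → ℝ → ℝ) (c : E3 → ℝ) (ξ : E3) : E3 :=
  fun i => if i ∈ S then max (ξ i - c ξ) (u i (ξ i)) else ξ i

variable {s σ k t t' : ℝ}

theorem steep_sub (s k t t' : ℝ) : steep s k t - steep s k t' = (t - t') / s := by
  unfold steep; ring

theorem steep_le (hs : 0 < s) (hs1 : s < 1) (h : t ≤ k + 1) : steep s k t ≤ t := by
  have : k + 1 - t ≤ (k + 1 - t) / s := by
    rw [le_div_iff₀ hs]; nlinarith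
  unfold steep; linarith

theorem steep_slope (hs : 0 < s) (hs1 : s < 1) (h : t' ≤ t) :
    t - t' ≤ steep s k t - steep s k t' := by
  rw [steep_sub, le_div_iff₀ hs]; nlinarith

theorem steep_lip (hs : 0 < s) (k t t' : ℝ) :
    |steep s k t - steep s k t'| ≤ s⁻¹ * |t - t'| := by
  rw [steep_sub, abs_div, abs_of_pos hs, div_eq_inv_mul]

theorem stp_slope (hs : 0 < s) (hs1 : s < 1) (hσ : σ ≤ 1) (h : t' ≤ t) :
    σ * (t - t') ≤ stp s σ k t - stp s σ k t' := by
  have h1 := steep_slope (k := k) hs hs1 h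
  have h2 : σ * (t - t') ≤ t - t' := by nlinarith
  have h3 := le_max_left (k + σ * (t - k)) (steep s k t)
  have h4 := le_max_right (k + σ * (t - k)) (steep s k t)
  unfold stp
  rcases le_total (k + σ * (t' - k)) (steep s k t') with h5 | h5
  · rw [max_eq_right h5]; linarith
  · rw [max_eq_left h5]; linarith

theorem stp_lip (hs : 0 < s) (hs1 : s < 1) (hσ0 : 0 ≤ σ) (hσ : σ ≤ 1) (k t t' : ℝ) :
    |stp s σ k t - stp s σ k t'| ≤ s⁻¹ * |t - t'| := by
  refine (abs_max_sub_max_le_max _ _ _ _).trans (max_le ?_ (steep_lip hs k t t'))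
  have h1 : k + σ * (t - k) - (k + σ * (t' - k)) = σ * (t - t') := by ring
  rw [h1, abs_mul, abs_of_nonneg hσ0]
  exact mul_le_mul_of_nonneg_right (hσ.trans (one_le_inv₀ hs |>.2 hs1.le)) (abs_nonneg _)

theorem stp_left (hs : 0 < s) (hs1 : s < 1) : stp s σ k k = k := by
  have := steep_le (k := k) (t := k) hs hs1 (by linarith)
  unfold stp
  rw [sub_self, mul_zero, add_zero, max_eq_left this]

theorem stp_right (hσ : σ ≤ 1) : stp s σ k (k + 1) = k + 1 := by
  unfold stp steep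
  rw [sub_self, zero_div, sub_zero, max_eq_right (by linarith)]

theorem stp_le (hs : 0 < s) (hs1 : s < 1) (hσ : σ ≤ 1) (h : t ∈ Icc k (k + 1)) :
    stp s σ k t ≤ t := max_le (by nlinarith [h.1]) (steep_le hs hs1 h.2)

theorem floor_mem (t : ℝ) : t ∈ Icc (⌊t⌋ : ℝ) (⌊t⌋ + 1) :=
  ⟨Int.floor_le t, (Int.lt_floor_add_one t).le⟩

theorem st_eq (hs : 0 < s) (hs1 : s < 1) (hσ : σ ≤ 1) {k : ℤ} (h : t ∈ Icc (k : ℝ) (k + 1)) :
    st s σ t = stp s σ k t := by
  rcases h.2.eq_or_lt with e | e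
  · have h1 : ⌊t⌋ = k + 1 := by rw [e]; exact_mod_cast Int.floor_intCast (R := ℝ) (k + 1)
    unfold st
    rw [h1, e, stp_right hσ]
    push_cast
    exact stp_left hs hs1
  · unfold st
    rw [Int.floor_eq_iff.2 ⟨h.1, e⟩]

theorem st_le (hs : 0 < s) (hs1 : s < 1) (hσ : σ ≤ 1) : st s σ t ≤ t :=
  stp_le hs hs1 hσ (floor_mem t)

theorem st_int (hs : 0 < s) (hs1 : s < 1) (k : ℤ) : st s σ k = k := by
  unfold st
  rw [Int.floor_intCast, stp_left hs hs1]

theorem st_slope (hs : 0 < s) (hs1 : s < 1) (hσ : σ ≤ 1) (h : t' ≤ t) :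
    σ * (t - t') ≤ st s σ t - st s σ t' := by
  rcases (Int.floor_mono h).eq_or_lt with e | e
  · unfold st
    rw [e]
    exact stp_slope hs hs1 hσ h
  · have h1 : (⌊t'⌋ : ℝ) + 1 ≤ ⌊t⌋ := by exact_mod_cast e
    have h2 := stp_slope (k := ⌊t'⌋) hs hs1 hσ (floor_mem t').2
    have h3 := stp_slope (k := ⌊t⌋) hs hs1 hσ (floor_mem t).1
    rw [stp_right hσ] at h2
    rw [stp_left hs hs1] at h3
    unfold st
    nlinarith

theorem pl_stp (s σ k : ℝ) : PLOn (stp s σ k) univ := by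
  have hc := A2.conicalSet_univ (E := ℝ)
  refine A2.pl_max (A2.pl_add (A2.pl_const _ hc) (A2.pl_mul σ (A2.pl_sub (A2.pl_id hc)
    (A2.pl_const _ hc)))) (A2.pl_congr (A2.pl_sub (A2.pl_const (k + 1) hc) (A2.pl_mul s⁻¹
      (A2.pl_sub (A2.pl_const (k + 1) hc) (A2.pl_id hc)))) fun t _ => ?_)
  simp only [steep, div_eq_inv_mul]

theorem pl_st (hs : 0 < s) (hs1 : s < 1) (hσ : σ ≤ 1) : PLOn (st s σ) univ := by
  have hc := A2.conicalSet_univ (E := ℝ)
  refine A2.pl_of_local fun x _ => ⟨fun t => stp s σ ((⌊x⌋ - 1 : ℤ) : ℝ) (min t ⌊x⌋) +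
    stp s σ ⌊x⌋ (max t ⌊x⌋) - ⌊x⌋, ?_, ?_⟩
  · exact A2.pl_sub (A2.pl_add
      (A2.pl_comp_univ (pl_stp _ _ _) (A2.pl_min (A2.pl_id hc) (A2.pl_const _ hc)))
      (A2.pl_comp_univ (pl_stp _ _ _) (A2.pl_max (A2.pl_id hc) (A2.pl_const _ hc))))
      (A2.pl_const _ hc)
  · refine mem_nhdsWithin_of_mem_nhds ?_
    filter_upwards [Ioo_mem_nhds (show (⌊x⌋ : ℝ) - 1 < x by linarith [Int.floor_le x])
      (Int.lt_floor_add_one x)] with t ht
    rcases le_total t ⌊x⌋ with h | h
    · rw [min_eq_left h, max_eq_right h, stp_left hs hs1, add_sub_cancel_right]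
      exact st_eq hs hs1 hσ ⟨by push_cast; exact ht.1.le, by push_cast; linarith⟩
    · have h1 : stp s σ ((⌊x⌋ - 1 : ℤ) : ℝ) ⌊x⌋ = ⌊x⌋ := by
        have := stp_right (s := s) (k := ((⌊x⌋ - 1 : ℤ) : ℝ)) hσ
        push_cast at this ⊢
        rwa [sub_add_cancel] at this
      rw [min_eq_right h, max_eq_left h, h1, add_sub_cancel_left]
      exact st_eq hs hs1 hσ ⟨h, ht.2.le⟩

variable {S : Finset (Fin 3)} {u : Fin 3 → ℝ → ℝ} {c : E3 → ℝ}

theorem push_of_mem {i : Fin 3} (h : i ∈ S) (ξ : E3) :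
    push S u c ξ i = max (ξ i - c ξ) (u i (ξ i)) := if_pos h

theorem push_of_notMem {i : Fin 3} (h : i ∉ S) (ξ : E3) : push S u c ξ i = ξ i := if_neg h

theorem push_anti {a : ℝ≥0} (ha : 2 ≤ a)
    (hu : ∀ i t t', t' ≤ t → t - t' ≤ a * (u i t - u i t')) (hc : LipschitzWith (1 / 2) c) :
    AntilipschitzWith a (push S u c) := by
  have ha' : (2:ℝ) ≤ a := by exact_mod_cast ha
  have key : ∀ ξ ξ' : E3, ∀ i, ξ i - ξ' i = dist ξ ξ' →
      dist ξ ξ' ≤ a * dist (push S u c ξ) (push S u c ξ') := by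
    intro ξ ξ' i hi
    have h0 : 0 ≤ dist ξ ξ' := dist_nonneg
    have h1 : push S u c ξ i - push S u c ξ' i ≤ dist (push S u c ξ) (push S u c ξ') :=
      (le_abs_self _).trans (dist_le_pi_dist (push S u c ξ) (push S u c ξ') i)
    have h2 : |c ξ - c ξ'| ≤ 1 / 2 * dist ξ ξ' := by
      simpa [Real.dist_eq] using hc.dist_le_mul ξ ξ'
    have h3 := abs_le.1 h2
    by_cases hS : i ∈ S
    · rw [push_of_mem hS, push_of_mem hS] at h1
      have h4 := le_max_left (ξ i - c ξ) (u i (ξ i))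
      have h5 := le_max_right (ξ i - c ξ) (u i (ξ i))
      rcases le_total (ξ' i - c ξ') (u i (ξ' i)) with h6 | h6
      · rw [max_eq_right h6] at h1
        have h7 := hu i (ξ i) (ξ' i) (by linarith)
        nlinarith
      · rw [max_eq_left h6] at h1
        nlinarith
    · rw [push_of_notMem hS, push_of_notMem hS] at h1
      nlinarith
  refine AntilipschitzWith.of_le_mul_dist fun ξ ξ' => ?_
  obtain ⟨i, hi⟩ := Finite.exists_max fun i => |ξ i - ξ' i|
  have e : |ξ i - ξ' i| = dist ξ ξ' :=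
    le_antisymm (dist_le_pi_dist ξ ξ' i) ((dist_pi_le_iff (abs_nonneg _)).2 hi)
  rcases le_total 0 (ξ i - ξ' i) with h | h
  · exact key ξ ξ' i (by rwa [abs_of_nonneg h] at e)
  · rw [dist_comm, dist_comm (push S u c ξ)]
    exact key ξ' ξ i (by rw [abs_of_nonpos h, dist_comm] at e; linarith)

theorem push_lip {κ : ℝ≥0} (hκ : 2 ≤ κ) (hu : ∀ i t t', |u i t - u i t'| ≤ κ * |t - t'|)
    (hc : LipschitzWith (1 / 2) c) : LipschitzWith κ (push S u c) := by
  have hκ' : (2:ℝ) ≤ κ := by exact_mod_cast hκ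
  refine LipschitzWith.of_dist_le_mul fun ξ ξ' => (dist_pi_le_iff (by positivity)).2 fun i => ?_
  have h0 : 0 ≤ dist ξ ξ' := dist_nonneg
  have h1 : |ξ i - ξ' i| ≤ dist ξ ξ' := dist_le_pi_dist ξ ξ' i
  rw [Real.dist_eq]
  by_cases hS : i ∈ S
  · rw [push_of_mem hS, push_of_mem hS]
    refine (abs_max_sub_max_le_max _ _ _ _).trans (max_le ?_ ((hu i _ _).trans (by gcongr)))
    have h2 : |c ξ - c ξ'| ≤ 1 / 2 * dist ξ ξ' := by
      simpa [Real.dist_eq] using hc.dist_le_mul ξ ξ'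
    have h3 := abs_le.1 h2
    have h4 := abs_le.1 h1
    rw [abs_le]
    constructor <;> nlinarith
  · rw [push_of_notMem hS, push_of_notMem hS]
    nlinarith

theorem pl_push (hu : ∀ i, PLOn (u i) univ) (hc : PLOn c univ) : PLOn (push S u c) univ := by
  have h0 := A2.conicalSet_univ (E := E3)
  refine A2.pl_pi h0 fun i => ?_
  by_cases hS : i ∈ S
  · simp only [push_of_mem hS]
    exact A2.pl_max (A2.pl_sub (A2.pl_proj i h0) hc) (A2.pl_comp_univ (hu i) (A2.pl_proj i h0))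
  · simp only [push_of_notMem hS]
    exact A2.pl_proj i h0

/-- an expanding PL map of the space is a PL homeomorphism -/
theorem exists_homeo {f : E3 → E3} {a : ℝ≥0} (hf : PLOn f univ) (ha : AntilipschitzWith a f) :
    ∃ Θ : ConHomeo (univ : Set E3) (univ : Set E3), Θ.toFun = f := by
  have hc : Continuous f := continuousOn_univ.1 hf.1
  have h1 : IsOpen (range f) := by
    rw [← image_univ]
    exact P073.iod isOpen_univ hf.1 ha.injective.injOn
  have h2 : IsClosed (range f) := by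
    have h3 := ha.tendsto_cobounded
    rw [cobounded_eq_cocompact] at h3
    exact (isProperMap_iff_tendsto_cocompact.2 ⟨hc, h3⟩).isClosed_range
  have h4 : Function.Surjective f :=
    range_eq_univ.1 (IsClopen.eq_univ ⟨h2, h1⟩ (range_nonempty f))
  exact ⟨{ toFun := f
           invFun := Function.surjInv h4
           mapsTo := mapsTo_univ _ _
           mapsTo_inv := mapsTo_univ _ _
           left_inv := fun x _ => ha.injective (Function.surjInv_eq h4 _)
           right_inv := fun y _ => Function.surjInv_eq h4 y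
           cont := hf.1
           cont_inv := (ha.to_rightInverse (Function.rightInverse_surjInv h4)).continuous.continuousOn
           conical := hf.2 }, rfl⟩

theorem vol_eq : (volume : Measure E3) = μH[3] := by
  have := hausdorffMeasure_pi_real (ι := Fin 3)
  simpa using this.symm

theorem vol_preimage_le {f : E3 → E3} {a : ℝ≥0} (ha : AntilipschitzWith a f) (N : Set E3) :
    volume (f ⁻¹' N) ≤ (a : ℝ≥0∞) ^ (3:ℝ) * volume N := by
  rw [vol_eq]
  exact ha.hausdorffMeasure_preimage_le (by norm_num) N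

theorem ae_comp {f : E3 → E3} {a : ℝ≥0} (ha : AntilipschitzWith a f) {q : E3 → Prop}
    (h : ∀ᵐ y, q y) : ∀ᵐ ξ, q (f ξ) := by
  have h1 := vol_preimage_le ha {y | ¬ q y}
  rw [ae_iff.1 h, mul_zero] at h1
  exact le_zero_iff.1 h1

theorem lintegral_comp_le {f : E3 → E3} {a : ℝ≥0} (ha : AntilipschitzWith a f)
    (hf : Measurable f) {g : E3 → ℝ≥0∞} (hg : Measurable g) :
    ∫⁻ ξ, g (f ξ) ≤ (a : ℝ≥0∞) ^ (3:ℝ) * ∫⁻ y, g y := by
  rw [← lintegral_map hg hf, ← smul_eq_mul, ← lintegral_smul_measure]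
  refine lintegral_mono' (Measure.le_iff.2 fun N hN => ?_) le_rfl
  rw [Measure.map_apply hf hN]
  exact vol_preimage_le ha N

end P073.Stair
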